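import Vale.Agent.P161C.Above
import Vale.Agent.P161C.BT
import Vale.Agent.P161C.Base
import Vale.Agent.P161C.Bnd
import Vale.Agent.P161C.Chan
import Vale.Agent.P161C.Col
import Vale.Agent.P161C.Cone
import Vale.Agent.P161C.Conv
import Vale.Agent.P161C.Cvx
import Vale.Agent.P161C.Dec
import Vale.Agent.P161C.Defs
import Vale.Agent.P161C.Diff
import Vale.Agent.P161C.Ent
import Vale.Agent.P161C.Eqf
import Vale.Agent.P161C.Fin
import Vale.Agent.P161C.Fldx
import Vale.Agent.P161C.Fmu
import Vale.Agent.P161C.Geo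
import Vale.Agent.P161C.Hoef
import Vale.Agent.P161C.Hom
import Vale.Agent.P161C.Ind
import Vale.Agent.P161C.Init
import Vale.Agent.P161C.JLaw
import Vale.Agent.P161C.LawA
import Vale.Agent.P161C.LawB
import Vale.Agent.P161C.LawX
import Vale.Agent.P161C.LawZ
import Vale.Agent.P161C.Lim
import Vale.Agent.P161C.Limq
import Vale.Agent.P161C.Mb
import Vale.Agent.P161C.Mg
import Vale.Agent.P161C.Mods
import Vale.Agent.P161C.Mods2
import Vale.Agent.P161C.Mon
import Vale.Agent.P161C.Mp
import Vale.Agent.P161C.Msg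
import Vale.Agent.P161C.Osg
import Vale.Agent.P161C.Pathf
import Vale.Agent.P161C.PiL2
import Vale.Agent.P161C.Plant
import Vale.Agent.P161C.ProcLaw
import Vale.Agent.P161C.Shp
import Vale.Agent.P161C.Sigf
import Vale.Agent.P161C.Star
import Vale.Agent.P161C.Stari
import Vale.Agent.P161C.Starm
import Vale.Agent.P161C.Stt
import Vale.Agent.P161C.TreeGen
import Vale.Agent.P161C.TreeGeo
import Vale.Agent.P161C.TreeLaw
import Vale.Agent.P161C.TreeSig
import Vale.Agent.P161C.Var
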